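import Vale.Agent.P092.H678.O.Sys
import Vale.Agent.P092.H962.C.PicT
import Vale.Agent.P092.SNT.Cl
import Vale.Agent.P092.H958.OrbT
import Vale.Agent.P092.H421.GrT7
import Vale.Agent.P092.H458.T.HalfE

/-!
P092 (helper458), [OV]: the generic rows of an irreducible system `H678.OV.Sys`: Bessel
approximation of orbits, the ergodicity field, the picture of both legs, sizes.
-/

set_option linter.all false

open scoped InnerProductSpace ENNReal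
open Set Filter Topology ContinuousLinearMap MeasureTheory TopologicalSpace

namespace Vale.Agent.P092.H458.OV

open Vale.Agent.P092.SR (Tri)
open Vale.Agent.P092.H678.OV (Sys Hsq HTri GTri OverV OverStmt Icc)
open Vale.Agent.P092.RC

/-! ### Bessel vectors -/

section bes

variable {Γ ℋ : Type} [Group Γ] [NormedAddCommGroup ℋ] [InnerProductSpace ℂ ℋ] [CompleteSpace ℋ]

/-- the orbit of the vector is a Bessel family -/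
def Bes (V R₂ : Γ →* (ℋ →L[ℂ] ℋ)) (ω : ℋ) : Prop :=
  ∃ C : ℝ, 0 ≤ C ∧ ∀ y : ℋ, ∑' p : Γ × Γ, ‖⟪R₂ p.2 (V p.1 ω), y⟫_ℂ‖ₑ ^ 2 ≤
    ENNReal.ofReal C * ‖y‖ₑ ^ 2

variable {V R₁ R₂ : Γ →* (ℋ →L[ℂ] ℋ)}

theorem Bes.add {u v : ℋ} (hu : Bes V R₂ u) (hv : Bes V R₂ v) : Bes V R₂ (u + v) := by
  obtain ⟨C, hC, h1⟩ := hu
  obtain ⟨D, hD, h2⟩ := hv
  refine ⟨2 * C + 2 * D, by positivity, fun y => ?_⟩
  have e1 : ∀ p : Γ × Γ, ‖⟪R₂ p.2 (V p.1 (u + v)), y⟫_ℂ‖ₑ ^ 2 ≤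
      2 * ‖⟪R₂ p.2 (V p.1 u), y⟫_ℂ‖ₑ ^ 2 + 2 * ‖⟪R₂ p.2 (V p.1 v), y⟫_ℂ‖ₑ ^ 2 := by
    intro p
    rw [map_add, map_add, inner_add_left, H958.esq', H958.esq', H958.esq',
      show (2 : ℝ≥0∞) = ENNReal.ofReal 2 by simp, ← ENNReal.ofReal_mul (by norm_num),
      ← ENNReal.ofReal_mul (by norm_num), ← ENNReal.ofReal_add (by positivity) (by positivity)]
    apply ENNReal.ofReal_le_ofReal
    have h3 := norm_add_le ⟪R₂ p.2 (V p.1 u), y⟫_ℂ ⟪R₂ p.2 (V p.1 v), y⟫_ℂ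
    have h4 := norm_nonneg (⟪R₂ p.2 (V p.1 u), y⟫_ℂ + ⟪R₂ p.2 (V p.1 v), y⟫_ℂ)
    nlinarith [sq_nonneg (‖⟪R₂ p.2 (V p.1 u), y⟫_ℂ‖ - ‖⟪R₂ p.2 (V p.1 v), y⟫_ℂ‖)]
  refine (ENNReal.tsum_le_tsum e1).trans ?_
  rw [ENNReal.tsum_add, ENNReal.tsum_mul_left, ENNReal.tsum_mul_left,
    ENNReal.ofReal_add (by positivity) (by positivity), ENNReal.ofReal_mul (by norm_num),
    ENNReal.ofReal_mul (by norm_num), add_mul, show ENNReal.ofReal 2 = 2 by simp, mul_assoc,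
    mul_assoc]
  gcongr
  · exact h1 y
  · exact h2 y

theorem Bes.smul {u : ℋ} (hu : Bes V R₂ u) (c : ℂ) : Bes V R₂ (c • u) := by
  obtain ⟨C, hC, h1⟩ := hu
  refine ⟨‖c‖ ^ 2 * C, by positivity, fun y => ?_⟩
  have e1 : ∀ p : Γ × Γ, ‖⟪R₂ p.2 (V p.1 (c • u)), y⟫_ℂ‖ₑ ^ 2 =
      ENNReal.ofReal (‖c‖ ^ 2) * ‖⟪R₂ p.2 (V p.1 u), y⟫_ℂ‖ₑ ^ 2 := by
    intro p
    rw [map_smul, map_smul, inner_smul_left, H958.esq', H958.esq',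
      ← ENNReal.ofReal_mul (by positivity), norm_mul, mul_pow, RCLike.norm_conj]
  simp_rw [e1]
  rw [ENNReal.tsum_mul_left, ENNReal.ofReal_mul (by positivity), mul_assoc]
  gcongr
  exact h1 y

theorem Bes.shift {u : ℋ} (hc : ∀ g h, V g * R₂ h = R₂ h * V g) (hu : Bes V R₂ u) (x s : Γ) :
    Bes V R₂ (V x (R₂ s u)) := by
  obtain ⟨C, hC, h1⟩ := hu
  refine ⟨C, hC, fun y => ?_⟩
  refine le_of_eq_of_le ?_ (h1 y)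
  rw [← (Equiv.prodCongr (Equiv.mulRight x) (Equiv.mulRight s)).tsum_eq
    (fun p : Γ × Γ => ‖⟪R₂ p.2 (V p.1 u), y⟫_ℂ‖ₑ ^ 2)]
  refine tsum_congr fun p => ?_
  change ‖⟪R₂ p.2 (V p.1 (V x (R₂ s u))), y⟫_ℂ‖ₑ ^ 2 =
    ‖⟪R₂ (p.2 * s) (V (p.1 * x) u), y⟫_ℂ‖ₑ ^ 2
  have e1 : V p.1 (V x (R₂ s u)) = R₂ s (V (p.1 * x) u) := by
    rw [map_mul]
    change _ = R₂ s (V p.1 (V x u))
    rw [← H421.Hs.cm_ap (hc p.1 s), ← H421.Hs.cm_ap (hc x s)]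
  have e2 : R₂ (p.2 * s) = R₂ p.2 * R₂ s := map_mul _ _ _
  rw [e1, e2]
  rfl

variable {κ : Type} [Fintype κ] {ζ : κ → ℋ}

theorem bes_frame (h : Tri R₁ V R₂ ζ) (i : κ) : Bes V R₂ (ζ i) := by
  refine ⟨1, zero_le_one, fun y => ?_⟩
  rw [ENNReal.ofReal_one, one_mul]
  have h1 : H421.Hs.Pf (fun p : κ × Γ × Γ => V p.2.1 (R₂ p.2.2 (ζ p.1))) :=
    H421.Hs.pf_of_hasSum fun η => h.frame η
  have h2 := h1 y
  rw [ENNReal.tsum_prod'] at h2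
  refine le_trans (le_of_eq ?_) ((ENNReal.le_tsum i).trans h2.le)
  refine tsum_congr fun p => ?_
  change ‖⟪R₂ p.2 (V p.1 (ζ i)), y⟫_ℂ‖ₑ ^ 2 = ‖⟪V p.1 (R₂ p.2 (ζ i)), y⟫_ℂ‖ₑ ^ 2
  rw [H421.Hs.cm_ap (h.comm₁₂ p.1 p.2)]

/-- the subspace of Bessel vectors -/
def besSub (V R₂ : Γ →* (ℋ →L[ℂ] ℋ)) : Submodule ℂ ℋ where
  carrier := {ω | Bes V R₂ ω}
  add_mem' h1 h2 := h1.add h2
  zero_mem' := ⟨0, le_rfl, fun y => by simp⟩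
  smul_mem' c _ h := h.smul c

theorem bes_dense (h : Tri R₁ V R₂ ζ) : (besSub V R₂).topologicalClosure = ⊤ := by
  rw [Submodule.topologicalClosure_eq_top_iff, Submodule.eq_bot_iff]
  intro y hy
  have h1 : H421.Hs.Pf (fun p : κ × Γ × Γ => V p.2.1 (R₂ p.2.2 (ζ p.1))) :=
    H421.Hs.pf_of_hasSum fun η => h.frame η
  refine h1.eq_zero fun p => ?_
  exact (Submodule.mem_orthogonal _ _).1 hy _ ((bes_frame h p.1).shift h.comm₁₂ _ _)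

/-- **Orbits are approximated by Bessel families.** -/
theorem bes_of (h : Tri R₁ V R₂ ζ) (ω : ℋ) {ε : ℝ} (hε : 0 < ε) :
    ∃ (C : ℝ) (a : Γ → ℋ), (∀ v, ‖V v ω - a v‖ ≤ ε) ∧
      ∀ y : ℋ, ∑' p : Γ × Γ, ‖⟪R₂ p.2 (a p.1), y⟫_ℂ‖ₑ ^ 2 ≤ ENNReal.ofReal C * ‖y‖ₑ ^ 2 := by
  have h1 : ω ∈ (besSub V R₂).topologicalClosure := by
    rw [bes_dense h]
    trivial
  have h2 : ω ∈ closure ((besSub V R₂ : Submodule ℂ ℋ) : Set ℋ) := h1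
  obtain ⟨ω', ⟨C, hC, h3⟩, h4⟩ := Metric.mem_closure_iff.1 h2 ε hε
  refine ⟨C, fun v => V v ω', fun v => ?_, h3⟩
  rw [← map_sub, H421.Hs.norm_U h.adj₁, ← dist_eq_norm]
  exact h4.le

end bes

/-! ### The picture -/

section gen

open Vale.Agent.P092.H85 (cdat)
open Vale.Agent.P092.H34.Ind (Xset)

variable {E : Type} [Group E] [TopologicalSpace E] [IsTopologicalGroup E] [LocallyCompactSpace E]
  [SecondCountableTopology E] [T2Space E] [MeasurableSpace E] [BorelSpace E]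
  {Γ : Subgroup E} [DiscreteTopology Γ] [Countable Γ] [MeasurableSpace (E ⧸ Γ)]
  [BorelSpace (E ⧸ Γ)] {ν : Measure (E ⧸ Γ)} [IsProbabilityMeasure ν]
  (hν : ∀ g : E, ν.map (fun x => g • x) = ν)
  {ℋ : Type} [NormedAddCommGroup ℋ] [InnerProductSpace ℂ ℋ] [CompleteSpace ℋ]
  {V R₁ R₂ : Γ →* (ℋ →L[ℂ] ℋ)} {ι κ : Type} [Fintype ι] [Fintype κ] {ξ : ι → ℋ} {ζ : κ → ℋ}

theorem comp_zero' : (0 : ℋ →L[ℂ] ℋ).compLpL 2 (cdat ν hν).μ = 0 := by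
  refine ContinuousLinearMap.ext fun ξ => Lp.ext ?_
  filter_upwards [(0 : ℋ →L[ℂ] ℋ).coeFn_compLpL (p := 2) (μ := (cdat ν hν).μ) ξ,
    Lp.coeFn_zero ℋ 2 (cdat ν hν).μ] with x h1 h2
  rw [h1]
  exact h2.symm

/-- **The ergodicity field from `Hsq`.** -/
theorem hs_of (h : Tri V R₁ R₂ ξ) (hs : Hsq V R₂) (S : Set E) (hS : Moore S)
    (T : Lp ℋ 2 (cdat ν hν).μ →L[ℂ] Lp ℋ 2 (cdat ν hν).μ)
    (hT : Cm (Xset (cdat ν hν) ℋ ∪ Set.range (H34.Ind.lam (cdat ν hν) R₂)) T)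
    (hf : TRNF (H34.Ind.lam (cdat ν hν) R₁) (H34.AmpE.nrm hν ξ) T < ∞)
    (hc : ∀ g ∈ S, T * H34.Ind.pi (cdat ν hν) (V := V) h.adjV g =
      H34.Ind.pi (cdat ν hν) (V := V) h.adjV g * T) : T = 0 := by
  obtain ⟨I', hI, ⟨b⟩⟩ := H264.Amp.exists_basis (H264.Amp.pars_of_tri h)
  have h1 := H421.HsT.comm_of_mooreF (wp_tri hν h.adjV h)
    (fun T hT g => H34.AmpE.tr_conj_tri hν h.adjV b h hT g)
    (H34.Ind.adjoint_pi (cdat ν hν) h.adjV) (H34.AmpE.cont_pi hν h.adjV)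
    (fun T hT h0 => H34.AmpE.tr_zero_tri hν b h hT h0) hS hT hf hc
  obtain ⟨a, rfl, ha⟩ := H421.Hs.const_of_comm hν b h.adjV
    (fun A hA => hT _ (Or.inl ⟨A, hA, rfl⟩)) h1
  have h2 : TRNF (H34.Ind.lam (cdat ν hν) R₁)
    (fun i => Lp.const 2 (cdat ν hν).μ (((((Real.sqrt (∑ j, ‖ξ j‖ ^ 2))⁻¹ : ℝ) : ℂ)) • ξ i))
      (a.compLpL 2 (cdat ν hν).μ) < ∞ := hf
  rw [H421.HsT.trnF_comp] at h2
  have hc1 : ‖((((Real.sqrt (∑ j, ‖ξ j‖ ^ 2))⁻¹ : ℝ) : ℂ))‖ₑ ^ 2 ≠ 0 :=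
    pow_ne_zero _ (enorm_ne_zero.2 (nrm_ne h.ne))
  have hf1 : ∑' q : ι × Γ, ‖a (R₁ q.2 (ξ q.1))‖ₑ ^ 2 < ∞ := by
    rcases ENNReal.mul_lt_top_iff.1 h2 with h | h | h
    · exact h.2
    · exact absurd h hc1
    · rw [h]; exact ENNReal.zero_lt_top
  have h3 : a = 0 := hs (ι × Γ) _ (H421.Hs.tri_frq₂ h) a ha
    (fun g => H421.Hs.comm_of_comp (hT _ (Or.inr ⟨g, rfl⟩))) hf1
  rw [h3, comp_zero']

/-- **The picture of the first leg of an irreducible system.** -/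
theorem pic_of (h : Sys V R₁ R₂) (hT : Tri V R₁ R₂ ξ) (h' : Tri R₁ V R₂ ζ) :
    PicF (H34.Ind.pi (cdat ν hν) (V := V) hT.adjV) (H34.Ind.lam (cdat ν hν) R₁)
      (Xset (cdat ν hν) ℋ ∪ Set.range (H34.Ind.lam (cdat ν hν) R₂)) (H34.AmpE.nrm hν ξ) := by
  obtain ⟨I', hI, ⟨b⟩⟩ := H264.Amp.exists_basis (H264.Amp.pars_of_tri hT)
  exact picF_of hν hT.adjV b hT h' h.irr (hs_of hν hT h.hs₂)

/-- **The picture of both legs of an irreducible system.** -/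
theorem pic2_of (h : Sys V R₁ R₂) (hT : Tri V R₁ R₂ ξ) :
    Pic2F (H34.Ind.pi (cdat ν hν) (V := V) hT.adjV) (H34.Ind.lam (cdat ν hν) R₁)
      (H34.Ind.lam (cdat ν hν) R₂) (Xset (cdat ν hν) ℋ) (H34.AmpE.nrm hν ξ) := by
  obtain ⟨κ₁, _, ζ₁, h₁⟩ := h.g₁
  obtain ⟨κ₂, _, ζ₂, h₂⟩ := h.g₂
  have xadj : ∀ x ∈ Xset (cdat ν hν) ℋ, adjoint x ∈ Xset (cdat ν hν) ℋ := by
    rintro _ ⟨S, hS, rfl⟩
    exact ⟨S, hS, H790.adjoint_ind hS⟩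
  have xp : ∀ x ∈ Xset (cdat ν hν) ℋ, ∀ g,
      H34.Ind.pi (cdat ν hν) (V := V) hT.adjV g * x *
        H34.Ind.pi (cdat ν hν) (V := V) hT.adjV g⁻¹ ∈ Xset (cdat ν hν) ℋ := by
    rintro _ ⟨S, hS, rfl⟩ g
    refine ⟨_, ((cdat ν hν).mp g⁻¹).measurable hS, ?_⟩
    rw [H34.Ind.pi_ind (cdat ν hν) hT.adjV g hS, mul_assoc, H34.Ind.pi_mul_inv, mul_one]
  exact ⟨pic_of hν h hT h₁, pic_of hν h.swap (H962.tri_swap' hT) h₂, xadj, xp⟩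

/-- (ORB) for an irreducible system -/
theorem orb_of {P : Type} [NormedAddCommGroup P] [ProperSpace P] [MeasurableSpace P]
    [BorelSpace P] {μ : Measure P} [IsFiniteMeasureOnCompacts μ] {b₀ : E} {n : P → E} {ρ : ℝ}
    (hn : Continuous n) (hspr : H368.SN.Spr μ b₀ n ρ) (hT : Tri V R₁ R₂ ξ)
    (h' : Tri R₁ V R₂ ζ) :
    H958.ORBGF μ b₀ n ρ (H34.Ind.pi (cdat ν hν) (V := V) hT.adjV)
      (H34.Ind.lam (cdat ν hν) R₁)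
      (Xset (cdat ν hν) ℋ ∪ Set.range (H34.Ind.lam (cdat ν hν) R₂)) (H34.AmpE.nrm hν ξ) := by
  obtain ⟨I', hI, ⟨b⟩⟩ := H264.Amp.exists_basis (H264.Amp.pars_of_tri hT)
  exact H958.orb_tri hν hT.adjV b hn hspr hT fun ω ε hε => bes_of h' ω hε

/-- polynomial sizes for an irreducible system -/
theorem size_of (h : Sys V R₁ R₂) (hT : Tri V R₁ R₂ ξ)
    {m : Set Γ → (Lp ℋ 2 (cdat ν hν).μ →L[ℂ] Lp ℋ 2 (cdat ν hν).μ)}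
    (hM : H421.GrT.MskL (H34.Ind.lam (cdat ν hν) R₁)
      (Xset (cdat ν hν) ℋ ∪ Set.range (H34.Ind.lam (cdat ν hν) R₂)) (H34.AmpE.nrm hν ξ) m)
    {B : ℕ → Set Γ} (hB : H933.Flt B) {σ : Γ → ℝ}
    (hσ : ∀ J γ, γ ∈ B J → σ γ ≤ Real.exp J)
    {a : E} (ha : H933.LeviGap a) (i : ι) :
    H725.SN.SZ3 a (H34.Ind.pi (cdat ν hν) (V := V) hT.adjV) (H34.AmpE.nrm hν ξ i) m σ := by
  obtain ⟨I', hI, ⟨b⟩⟩ := H264.Amp.exists_basis (H264.Amp.pars_of_tri hT)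
  exact H421.GrT.sz3_tri hν hT.adjV b hT h.irr hM hB hσ ha i

end gen

end Vale.Agent.P092.H458.OV
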