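import Vale.Agent.P092.H458.O.Tr
import Vale.Agent.P092.H458.O.Gen

/-!
P092 (helper458), [OV], [HON-N]: a finite Parseval family over `N × N`, `N` an infinite group with
infinite conjugacy classes, can be replaced by an honest one.
-/

set_option linter.all false

open scoped InnerProductSpace
open Filter Topology ContinuousLinearMap

namespace Vale.Agent.P092.H458.OV

open Vale.Agent.P092.H962.Eq (Cc adj_mul' adj_adj' exists_equiv)
open Vale.Agent.P092.H160 Vale.Agent.P092.H103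
open Vale.Agent.P092.SR (Tri)
open Vale.Agent.P092.H678.OV (HTri GTri Icc)

/-! ### No minimal projections -/

section diff

variable {N : Type} [Group N] [Infinite N]

/-- separated finite sets -/
theorem exists_sep {B : Set N} (hB : B.Finite) (n : ℕ) :
    ∃ F : Finset N, F.card = n ∧ ∀ g ∈ F, ∀ h ∈ F, g ≠ h → g⁻¹ * h ∉ B := by
  classical
  induction n with
  | zero => exact ⟨∅, rfl, fun g hg => absurd hg (Finset.notMem_empty g)⟩
  | succ n ih =>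
    obtain ⟨F, h1, h2⟩ := ih
    have h3 : ((F : Set N) ∪ ⋃ h ∈ (F : Set N), ((fun b => h * b) '' B ∪
        (fun b => h * b⁻¹) '' B)).Finite := by
      refine F.finite_toSet.union (F.finite_toSet.biUnion fun h _ => ?_)
      exact (hB.image _).union (hB.image _)
    obtain ⟨g, hg⟩ := h3.infinite_compl.nonempty
    rw [Set.mem_compl_iff, Set.mem_union, not_or] at hg
    obtain ⟨hg1, hg2⟩ := hg
    have hg3 : ∀ h ∈ F, h⁻¹ * g ∉ B ∧ g⁻¹ * h ∉ B := by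
      intro h hh
      constructor
      · intro hb
        refine hg2 (Set.mem_biUnion (Finset.mem_coe.2 hh) (Or.inl ⟨_, hb, ?_⟩))
        change h * (h⁻¹ * g) = g
        group
      · intro hb
        refine hg2 (Set.mem_biUnion (Finset.mem_coe.2 hh) (Or.inr ⟨_, hb, ?_⟩))
        change h * (g⁻¹ * h)⁻¹ = g
        group
    refine ⟨insert g F, by rw [Finset.card_insert_of_notMem hg1, h1], ?_⟩
    intro a ha b hb hab
    rw [Finset.mem_insert] at ha hb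
    rcases ha with rfl | ha
    · rcases hb with rfl | hb
      · exact absurd rfl hab
      · exact (hg3 b hb).2
    · rcases hb with rfl | hb
      · exact (hg3 a ha).1
      · exact h2 a ha b hb hab

variable {H : Type} [NormedAddCommGroup H] [InnerProductSpace ℂ H] [CompleteSpace H]
  {u : N →* (H →L[ℂ] H)}

/-- **No minimal projection.** -/
theorem not_min (hu : ∀ g, adjoint (u g) = u g⁻¹)
    (hc : ∀ v w : H, Tendsto (fun g => ⟪v, u g w⟫_ℂ) cofinite (𝓝 0)) {e : H →L[ℂ] H}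
    (ha : adjoint e = e) (hs : e * e = e) {ξ : H} (h0 : e ξ ≠ 0)
    (hξ : ∀ g, ‖e (u g ξ)‖ = ‖e ξ‖) : ¬ ∀ g, ∃ c : ℂ, e * u g * e = c • e := by
  intro hcon
  choose c hcc using hcon
  have hee : ∀ v, e (e v) = e v := fun v => congrArg (fun T : H →L[ℂ] H => T v) hs
  have hin : ∀ v w, ⟪e v, w⟫_ℂ = ⟪v, e w⟫_ℂ := fun v w => by rw [← adjoint_inner_right, ha]
  obtain ⟨r, hr⟩ : ∃ r, r = ‖e ξ‖ := ⟨_, rfl⟩
  obtain ⟨M, hM⟩ : ∃ M, M = ‖ξ‖ := ⟨_, rfl⟩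
  have hr0 : 0 < r := by rw [hr]; exact norm_pos_iff.2 h0
  have hM0 : 0 < M := by
    rw [hM, norm_pos_iff]
    rintro rfl
    exact h0 (map_zero e)
  have hsq : ∀ v, ⟪e v, e v⟫_ℂ = ((‖e v‖ ^ 2 : ℝ) : ℂ) := fun v => by
    rw [inner_self_eq_norm_sq_to_K]
    norm_cast
  -- the coefficients tend to zero
  have hc0 : Tendsto c cofinite (𝓝 0) := by
    have h1 := (hc (e ξ) (e ξ)).const_mul (((r ^ 2 : ℝ) : ℂ)⁻¹)
    rw [mul_zero] at h1
    refine h1.congr fun g => ?_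
    have h2 : ⟪e ξ, u g (e ξ)⟫_ℂ = c g * ((r ^ 2 : ℝ) : ℂ) := by
      have h3 : e (u g (e ξ)) = c g • e ξ := congrArg (fun T : H →L[ℂ] H => T ξ) (hcc g)
      have h4 : ⟪ξ, e ξ⟫_ℂ = ((r ^ 2 : ℝ) : ℂ) := by rw [← hee, ← hin, hsq, hr]
      rw [hin, h3, inner_smul_right, h4]
    rw [h2, mul_comm (c g), ← mul_assoc, inv_mul_cancel₀ (by
      have : (0 : ℝ) < r ^ 2 := by positivity
      exact_mod_cast this.ne'), one_mul]
  obtain ⟨ε, hε⟩ : ∃ ε, ε = r ^ 4 / (2 * M ^ 4) := ⟨_, rfl⟩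
  have hε0 : 0 < ε := by rw [hε]; positivity
  have hB : {g : N | ¬ ‖c g‖ < ε}.Finite := by
    have h1 := hc0.norm.eventually (gt_mem_nhds (by rw [norm_zero]; exact hε0))
    rwa [eventually_cofinite] at h1
  obtain ⟨n, hn⟩ := exists_nat_gt (2 * M ^ 2 / r ^ 2)
  have hn0 : 0 < (n : ℝ) := lt_trans (by positivity) hn
  obtain ⟨F, hF1, hF2⟩ := exists_sep hB n
  set Y : N → H := fun g => u g (e (u g⁻¹ ξ)) with hY
  have hnu : ∀ g v, ‖u g v‖ = ‖v‖ := fun g v => H421.Hs.norm_U hu g v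
  have hYn : ∀ g, ‖Y g‖ = r := fun g => by rw [hY]; change ‖u g (e (u g⁻¹ ξ))‖ = r; rw [hnu, hξ, hr]
  have hYi : ∀ g, ⟪ξ, Y g⟫_ℂ = ((r ^ 2 : ℝ) : ℂ) := by
    intro g
    change ⟪ξ, u g (e (u g⁻¹ ξ))⟫_ℂ = _
    rw [← inv_inv g, ← hu g⁻¹, adjoint_inner_right, inv_inv, ← hee, ← hin, hsq, hξ, hr]
  have hYY : ∀ g ∈ F, ∀ h ∈ F, g ≠ h → ‖⟪Y g, Y h⟫_ℂ‖ ≤ ε * M ^ 2 := by
    intro g hg h hh hgh
    have h1 : ⟪Y g, Y h⟫_ℂ = c (g⁻¹ * h) * ⟪u g⁻¹ ξ, e (u h⁻¹ ξ)⟫_ℂ := by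
      change ⟪u g (e (u g⁻¹ ξ)), u h (e (u h⁻¹ ξ))⟫_ℂ = _
      have h2 : u g⁻¹ (u h (e (u h⁻¹ ξ))) = u (g⁻¹ * h) (e (u h⁻¹ ξ)) := by rw [map_mul]; rfl
      have h3 : e (u (g⁻¹ * h) (e (u h⁻¹ ξ))) = c (g⁻¹ * h) • e (u h⁻¹ ξ) :=
        congrArg (fun T : H →L[ℂ] H => T (u h⁻¹ ξ)) (hcc (g⁻¹ * h))
      rw [← adjoint_inner_right, hu, h2, hin, h3, inner_smul_right]
    have h4 : ‖c (g⁻¹ * h)‖ ≤ ε := by
      have := hF2 g hg h hh hgh
      rw [Set.mem_setOf_eq, not_not] at this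
      exact this.le
    have h5 : ‖⟪u g⁻¹ ξ, e (u h⁻¹ ξ)⟫_ℂ‖ ≤ M * r := by
      refine (norm_inner_le_norm _ _).trans ?_
      rw [hnu, hξ, hM, hr]
    have h6 : r ≤ M := by
      have h7 : ⟪ξ, e ξ⟫_ℂ = ((r ^ 2 : ℝ) : ℂ) := by rw [← hee, ← hin, hsq, hr]
      have h8 := norm_inner_le_norm (𝕜 := ℂ) ξ (e ξ)
      rw [h7, Complex.norm_real, Real.norm_eq_abs, abs_of_nonneg (sq_nonneg r), ← hr, ← hM] at h8
      nlinarith
    rw [h1, norm_mul]
    calc ‖c (g⁻¹ * h)‖ * ‖⟪u g⁻¹ ξ, e (u h⁻¹ ξ)⟫_ℂ‖ ≤ ε * (M * r) := by gcongr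
      _ ≤ ε * M ^ 2 := by
        rw [sq]
        gcongr
  have hS1 : ⟪ξ, ∑ g ∈ F, Y g⟫_ℂ = ((n * r ^ 2 : ℝ) : ℂ) := by
    rw [inner_sum, Finset.sum_congr rfl fun g _ => hYi g, Finset.sum_const, hF1]
    push_cast
    rw [nsmul_eq_mul]
  have hS2 : ‖∑ g ∈ F, Y g‖ ^ 2 ≤ n * r ^ 2 + n ^ 2 * (ε * M ^ 2) := by
    classical
    have h1 : ‖∑ g ∈ F, Y g‖ ^ 2 = ‖⟪∑ g ∈ F, Y g, ∑ g ∈ F, Y g⟫_ℂ‖ := by
      rw [inner_self_eq_norm_sq_to_K, norm_pow]
      simp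
    rw [h1, sum_inner]
    refine (norm_sum_le _ _).trans ?_
    have h2 : ∀ g ∈ F, ‖⟪Y g, ∑ h ∈ F, Y h⟫_ℂ‖ ≤ r ^ 2 + n * (ε * M ^ 2) := by
      intro g hg
      rw [inner_sum]
      refine (norm_sum_le _ _).trans ?_
      rw [← Finset.add_sum_erase F _ hg]
      have h3 : ‖⟪Y g, Y g⟫_ℂ‖ = r ^ 2 := by
        rw [inner_self_eq_norm_sq_to_K, hYn, norm_pow]
        simp [abs_of_pos hr0]
      rw [h3]
      gcongr
      have h4 : ∑ h ∈ F.erase g, ‖⟪Y g, Y h⟫_ℂ‖ ≤ ∑ h ∈ F.erase g, ε * M ^ 2 :=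
        Finset.sum_le_sum fun h hh => by
          rw [Finset.mem_erase] at hh
          exact hYY g hg h hh.2 (Ne.symm hh.1)
      refine h4.trans ?_
      rw [Finset.sum_const, nsmul_eq_mul]
      gcongr
      rw [← hF1]
      exact Finset.card_le_card (Finset.erase_subset _ _)
    refine (Finset.sum_le_sum h2).trans ?_
    rw [Finset.sum_const, hF1, nsmul_eq_mul]
    exact le_of_eq (by ring)
  have hS3 : (n * r ^ 2) ^ 2 ≤ M ^ 2 * (n * r ^ 2 + n ^ 2 * (ε * M ^ 2)) := by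
    have h1 := norm_inner_le_norm (𝕜 := ℂ) ξ (∑ g ∈ F, Y g)
    rw [hS1, Complex.norm_real, Real.norm_eq_abs, abs_of_nonneg (by positivity), ← hM] at h1
    calc ((n : ℝ) * r ^ 2) ^ 2 ≤ (M * ‖∑ g ∈ F, Y g‖) ^ 2 :=
          pow_le_pow_left₀ (by positivity) h1 2
      _ = M ^ 2 * ‖∑ g ∈ F, Y g‖ ^ 2 := by ring
      _ ≤ _ := by gcongr
  have e1 : M ^ 2 * (n ^ 2 * (ε * M ^ 2)) = n ^ 2 * r ^ 4 / 2 := by
    rw [hε]
    field_simp
  have e2 : 2 * M ^ 2 < n * r ^ 2 := by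
    rw [div_lt_iff₀ (by positivity)] at hn
    exact hn
  have e3 : (n * r ^ 2) ^ 2 ≤ M ^ 2 * (n * r ^ 2) + n ^ 2 * r ^ 4 / 2 := by
    rw [← e1]
    linarith [hS3]
  have e4 : (n * r ^ 2) ^ 2 / 2 ≤ M ^ 2 * (n * r ^ 2) := by nlinarith
  have e5 : 0 < n * r ^ 2 := by positivity
  nlinarith

/-- **Proper subprojections.** -/
theorem diffuse {S : Set (H →L[ℂ] H)} (hS : ∀ s ∈ S, adjoint s ∈ S)
    (hu : ∀ g, adjoint (u g) = u g⁻¹)
    (hc : ∀ v w : H, Tendsto (fun g => ⟪v, u g w⟫_ℂ) cofinite (𝓝 0)) (huC : ∀ g, Cc S (u g))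
    {e : H →L[ℂ] H} (he : Pj S e) {ξ : H} (h0 : e ξ ≠ 0)
    (hξ : ∀ g, ‖e (u g ξ)‖ = ‖e ξ‖) : ∃ q, Pj S q ∧ e * q = q ∧ q ≠ 0 ∧ q ≠ e := by
  have he0 : e ≠ 0 := by
    rintro rfl
    exact h0 rfl
  have h1 := not_min hu hc he.adj he.sq h0 hξ
  push Not at h1
  obtain ⟨g, hg⟩ := h1
  have hl : ∀ y : H →L[ℂ] H, e * (e * y * e) = e * y * e := fun y => by
    rw [← mul_assoc, ← mul_assoc, he.sq]
  have hr : ∀ y : H →L[ℂ] H, e * y * e * e = e * y * e := fun y => by rw [mul_assoc, he.sq]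
  have hs : ∀ (c : ℂ) {y : H →L[ℂ] H}, Cc S y → Cc S (c • y) := fun c y hy s h => by
    rw [smul_mul_assoc, mul_smul_comm, hy s h]
  by_cases h2 : ∃ c : ℝ, e * (u g + u g⁻¹) * e = (c : ℂ) • e
  · by_cases h3 : ∃ c : ℝ, Complex.I • (e * (u g - u g⁻¹) * e) = (c : ℂ) • e
    · exfalso
      obtain ⟨c, hc'⟩ := h2
      obtain ⟨d, hd⟩ := h3
      refine hg ((1 / 2 : ℂ) * ((c : ℂ) - Complex.I * d)) ?_
      have e1 : e * u g * e + e * u g⁻¹ * e = (c : ℂ) • e := by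
        rw [← hc', mul_add, add_mul]
      have e2 : e * u g * e - e * u g⁻¹ * e = (-(Complex.I * d)) • e := by
        have e3 : Complex.I • (e * u g * e - e * u g⁻¹ * e) = (d : ℂ) • e := by
          rw [← hd, mul_sub, sub_mul]
        have e4 := congrArg (fun T => (-Complex.I) • T) e3
        simp only [smul_smul] at e4
        rw [show -Complex.I * Complex.I = 1 by simp, one_smul] at e4
        rw [e4]
        congr 1
        ring
      have e5 : (2 : ℂ) • (e * u g * e) = ((c : ℂ) + -(Complex.I * d)) • e := by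
        rw [add_smul, ← e1, ← e2, two_smul]
        abel
      calc e * u g * e = (1 / 2 : ℂ) • ((2 : ℂ) • (e * u g * e)) := by
            rw [smul_smul]
            norm_num
        _ = _ := by rw [e5, smul_smul]; rfl
    · push Not at h3
      refine sub_of_ne hS he he0 (y := Complex.I • (e * (u g - u g⁻¹) * e))
        (hs _ ((he.cc.mul ((huC g).sub (huC g⁻¹))).mul he.cc)) ?_ ?_ ?_ h3
      · rw [map_smulₛₗ, adj_mul', adj_mul', he.adj, map_sub, hu, hu, inv_inv, ← mul_assoc,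
          Complex.conj_I, neg_smul, ← smul_neg]
        congr 1
        rw [← neg_mul, ← mul_neg, neg_sub]
      · rw [mul_smul_comm, hl]
      · rw [smul_mul_assoc, hr]
  · push Not at h2
    refine sub_of_ne hS he he0 (y := e * (u g + u g⁻¹) * e)
      ((he.cc.mul ((huC g).add (huC g⁻¹))).mul he.cc) ?_ (hl _) (hr _) h2
    rw [adj_mul', adj_mul', he.adj, map_add, hu, hu, inv_inv, ← mul_assoc, add_comm]

end diff

/-! ### The algebra `M_κ(1 ⊗ L(N))` -/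

section alg

variable {N κ : Type} [Group N]

/-- left translation of the second coordinate -/
def lf (κ N : Type) [Group N] : FS N (κ × (N × N)) (κ × N) where
  act :=
    { toFun := fun x => Equiv.prodCongr (Equiv.refl κ)
        (Equiv.prodCongr (Equiv.refl N) (Equiv.mulLeft x))
      map_one' := by ext1 z; simp
      map_mul' := fun x y => by
        refine Equiv.ext fun z => Prod.ext rfl (Prod.ext rfl ?_)
        change x * y * z.2.2 = x * (y * z.2.2)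
        rw [mul_assoc] }
  base p := (p.1, (p.2, 1))
  bij := by
    constructor
    · rintro ⟨⟨i, a⟩, x⟩ ⟨⟨j, b⟩, y⟩ h
      have h1 : (i, (a, x * 1)) = (j, (b, y * 1)) := h
      rw [mul_one, mul_one] at h1
      simp only [Prod.mk.injEq] at h1 ⊢
      exact ⟨⟨h1.1, h1.2.1⟩, h1.2.2⟩
    · rintro ⟨i, a, b⟩
      exact ⟨((i, a), b), by change (i, (a, b * 1)) = (i, (a, b)); rw [mul_one]⟩

theorem lf_dl (x : N) (i : κ) (a b : N) :
    (lf κ N).R x (dl (i, (a, b))) = dl (i, (a, x * b)) := by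
  rw [FS.R_dl]
  rfl

/-- the indicator of a value of the first coordinate -/
noncomputable def i1 (κ : Type) (a : N) : κ × (N × N) → ℝ :=
  Set.indicator {z | z.2.1 = a} fun _ => 1

theorem i1_bd (κ : Type) (a : N) : ∀ z, |i1 κ a z| ≤ 1 := by
  classical
  intro z
  rw [i1, Set.indicator_apply]
  split_ifs <;> simp

/-- multiplication by the indicator -/
noncomputable def Id1 (κ : Type) (a : N) : Ell2 (κ × (N × N)) →L[ℂ] Ell2 (κ × (N × N)) :=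
  H553.mo (i1 κ a)

theorem Id1_ap (a : N) (v : Ell2 (κ × (N × N))) (z : κ × (N × N)) :
    Id1 κ a v z = (i1 κ a z : ℂ) * v z := H553.mo_apply (i1_bd κ a) v z

theorem Id1_adj (a : N) : adjoint (Id1 κ a) = Id1 κ a := H553.adjoint_mo (i1_bd κ a)

/-- the operators which cut out `M_κ(1 ⊗ L(N))` -/
def S2 (κ N : Type) [Group N] : Set (Ell2 (κ × (N × N)) →L[ℂ] Ell2 (κ × (N × N))) :=
  {T | (∃ x : N × N, T = (FS.mat κ (N × N)).R x) ∨ ∃ a : N, T = Id1 κ a}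

theorem S2_adj : ∀ s ∈ S2 κ N, adjoint s ∈ S2 κ N := by
  rintro _ (⟨x, rfl⟩ | ⟨a, rfl⟩)
  · exact Or.inl ⟨x⁻¹, FS.R_adj _ _⟩
  · exact Or.inr ⟨a, Id1_adj a⟩

theorem mat_dl' (x y : N) (i : κ) (c d : N) :
    (FS.mat κ (N × N)).R (x, y) (dl (i, (c, d))) = dl (i, (c * x⁻¹, d * y⁻¹)) := by
  rw [FS.R_dl]
  rfl

theorem lf_cc (g : N) : Cc (S2 κ N) ((lf κ N).R g) := by
  rintro _ (⟨⟨x, y⟩, rfl⟩ | ⟨a, rfl⟩)
  · apply op_ext
    rintro ⟨i, c, d⟩
    change (lf κ N).R g ((FS.mat κ (N × N)).R (x, y) (dl (i, (c, d)))) =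
      (FS.mat κ (N × N)).R (x, y) ((lf κ N).R g (dl (i, (c, d))))
    rw [lf_dl, mat_dl', mat_dl', lf_dl, mul_assoc]
  · ext1 v
    change (lf κ N).R g (Id1 κ a v) = Id1 κ a ((lf κ N).R g v)
    apply ext_inner_dl
    rintro ⟨i, c, d⟩
    rw [Id1_ap, FS.R_val, FS.R_val, Id1_ap]
    rfl

theorem eqv_of {κ N : Type} [Group N] {x : Ell2 (κ × (N × N)) →L[ℂ] Ell2 (κ × (N × N))}
    (h : ∀ y : N × N, x * (FS.mat κ (N × N)).R y = (FS.mat κ (N × N)).R y * x) :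
    Eqv (FS.mat κ (N × N)).R (FS.mat κ (N × N)).R x := fun y v =>
  congrArg (fun T : Ell2 (κ × (N × N)) →L[ℂ] Ell2 (κ × (N × N)) => T v) (h y)

/-- **`M_κ(1 ⊗ L(N))` has projections of every trace.** -/
theorem exists_pj [Fintype κ] [Infinite N] {s : ℝ} (h0 : 0 ≤ s) (h1 : s ≤ Fintype.card κ) :
    ∃ f, Pj (S2 κ N) f ∧ tq (fun i : κ => dl (i, ((1, 1) : N × N))) f = s := by
  refine all_tr S2_adj (fun e he he0 => ?_) h0 ?_
  · have hE := eqv_of fun y => he.cc _ (Or.inl ⟨y, rfl⟩)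
    obtain ⟨i, hi⟩ : ∃ i : κ, e (dl (i, ((1, 1) : N × N))) ≠ 0 := by
      by_contra hcon
      push Not at hcon
      refine he0 ((FS.mat κ (N × N)).ext_base (FS.mat κ (N × N)) hE (fun s u => ?_) fun i => ?_)
      · rw [ContinuousLinearMap.zero_apply, ContinuousLinearMap.zero_apply, map_zero]
      · rw [ContinuousLinearMap.zero_apply]
        exact hcon i
    refine diffuse S2_adj (fun g => FS.R_adj _ g) (fun v w => FS.coeff_c0 (lf κ N) v w)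
      lf_cc he hi fun g => ?_
    have e1 : (lf κ N).R g (dl (i, ((1, 1) : N × N))) =
        (FS.mat κ (N × N)).R (1, g⁻¹) (dl (i, ((1, 1) : N × N))) := by
      rw [lf_dl, FS.R_dl, FS.mat_act]
      change dl (i, ((1 : N), g * 1)) = dl (i, (1 * (1 : N)⁻¹, 1 * g⁻¹⁻¹))
      rw [inv_one, mul_one, mul_one, inv_inv, one_mul]
    rw [e1, hE, FS.R_norm]
  · refine h1.trans (le_of_eq ?_)
    have e1 : ∀ i : κ, ‖(dl (i, ((1, 1) : N × N)) : Ell2 (κ × (N × N)))‖ ^ 2 = 1 := by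
      intro i
      rw [norm_dl, one_pow]
    simp only [e1]
    simp

end alg

/-! ### The honest family -/

section hon

variable {N ℋ κ : Type} [Group N] [Fintype κ] [NormedAddCommGroup ℋ] [InnerProductSpace ℂ ℋ]
  [CompleteSpace ℋ] {V R₁ R₂ : N →* (ℋ →L[ℂ] ℋ)} {ξ : κ → ℋ}

/-- `((a, b), i) ↦ (i, (a⁻¹, b⁻¹))` -/
def eK (κ N : Type) [Group N] : (N × N) × κ ≃ κ × (N × N) where
  toFun p := (p.2, (p.1.1⁻¹, p.1.2⁻¹))
  invFun p := ((p.2.1⁻¹, p.2.2⁻¹), p.1)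
  left_inv p := by simp
  right_inv p := by simp

/-- the analysis operator -/
noncomputable def UK (hT : Tri V R₁ R₂ ξ) : ℋ →L[ℂ] Ell2 (κ × (N × N)) :=
  (rei (eK κ N)).comp (H21.UT hT)

theorem adj_UK (hT : Tri V R₁ R₂ ξ) (v : Ell2 (κ × (N × N))) :
    adjoint (UK hT) v = adjoint (H21.UT hT) (rei (eK κ N).symm v) := by
  rw [UK, adjoint_comp, adjoint_rei]
  rfl

theorem adj_UK_dl (hT : Tri V R₁ R₂ ξ) (i : κ) (a b : N) :
    adjoint (UK hT) (dl (i, (a, b))) = R₁ a⁻¹ (R₂ b⁻¹ (ξ i)) := by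
  rw [adj_UK, rei_dl, H21.adjUT_dl]
  rfl

theorem UK_left (hT : Tri V R₁ R₂ ξ) (η : ℋ) : adjoint (UK hT) (UK hT η) = η := by
  rw [adj_UK]
  have e1 : rei (eK κ N).symm (UK hT η) = H21.UT hT η := by
    apply ext_inner_dl
    intro z
    change rei (eK κ N).symm (rei (eK κ N) (H21.UT hT η)) z = _
    rw [rei_apply, rei_apply, Equiv.symm_symm, Equiv.symm_apply_apply]
  rw [e1, H21.UT_left]

theorem R_adj_UK (hT : Tri V R₁ R₂ ξ) (a b : N) (v : Ell2 (κ × (N × N))) :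
    R₁ a (R₂ b (adjoint (UK hT) v)) = adjoint (UK hT) ((FS.mat κ (N × N)).R (a, b) v) := by
  have h1 : (R₁ a * R₂ b) ∘L adjoint (UK hT) =
      adjoint (UK hT) ∘L (FS.mat κ (N × N)).R (a, b) := by
    apply op_ext
    rintro ⟨i, c, d⟩
    change R₁ a (R₂ b (adjoint (UK hT) (dl (i, (c, d))))) =
      adjoint (UK hT) ((FS.mat κ (N × N)).R (a, b) (dl (i, (c, d))))
    rw [adj_UK_dl, mat_dl', adj_UK_dl, mul_inv_rev, mul_inv_rev, inv_inv, inv_inv, map_mul, map_mul]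
    change _ = R₁ a (R₁ c⁻¹ (R₂ b (R₂ d⁻¹ (ξ i))))
    rw [H421.Hs.cm_ap (hT.comm₁₂ c⁻¹ b)]
  exact congrArg (fun T : Ell2 (κ × (N × N)) →L[ℂ] ℋ => T v) h1

theorem UK_R (hT : Tri V R₁ R₂ ξ) (a b : N) (η : ℋ) :
    (FS.mat κ (N × N)).R (a, b) (UK hT η) = UK hT (R₁ a (R₂ b η)) := by
  refine ext_inner_left ℂ fun v => ?_
  rw [FS.R_right, ← adjoint_inner_left, ← adjoint_inner_left]
  have h1 := R_adj_UK hT a⁻¹ b⁻¹ v
  have h2 : ((a, b) : N × N)⁻¹ = (a⁻¹, b⁻¹) := rfl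
  rw [h2, ← h1, ← hT.adj₁, adjoint_inner_left, ← hT.adj₂, adjoint_inner_left]
  congr 1
  exact H421.Hs.cm_ap (hT.comm₁₂ a b).symm η

theorem icc_prod (hN : Icc N) :
    ∀ s : N × N, s ≠ 1 → Set.Infinite {y : N × N | ∃ h, y = h * s * h⁻¹} := by
  rintro ⟨a, b⟩ h
  by_cases ha : a = 1
  · have hb : b ≠ 1 := by
      rintro rfl
      exact h (by rw [ha]; rfl)
    intro hf
    refine hN b hb ((hf.image Prod.snd).subset ?_)
    rintro y ⟨g, rfl⟩
    exact ⟨(g * 1, g) * (a, b) * (g * 1, g)⁻¹, ⟨_, rfl⟩, rfl⟩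
  · intro hf
    refine hN a ha ((hf.image Prod.fst).subset ?_)
    rintro y ⟨g, rfl⟩
    exact ⟨(g, g) * (a, b) * (g, g)⁻¹, ⟨_, rfl⟩, rfl⟩

theorem Id1_dl (j : κ) : Id1 κ (1 : N) (dl (j, ((1, 1) : N × N))) = dl (j, ((1, 1) : N × N)) := by
  classical
  apply ext_inner_dl
  intro z
  rw [Id1_ap]
  by_cases h : z = (j, ((1, 1) : N × N))
  · rw [h, dl_self, i1, Set.indicator_apply, if_pos (by exact rfl)]
    simp
  · rw [dl_ne h, mul_zero]

/-- **[HON-N]** Every finite Parseval family over `N × N` can be replaced by an honest one. -/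
theorem hon_of_tri [Infinite N] (hN : Icc N) (hT : Tri V R₁ R₂ ξ) :
    ∃ ζ : κ → ℋ, Tri V R₁ R₂ ζ ∧
      ∀ γ : N, γ ≠ 1 → ∀ γ' i j, ⟪R₁ γ (R₂ γ' (ζ i)), ζ j⟫_ℂ = 0 := by
  classical
  haveI : Nonempty κ := ⟨hT.ne.choose⟩
  obtain ⟨U, hU⟩ : ∃ U, U = UK hT := ⟨_, rfl⟩
  have hUU : ∀ η, adjoint U (U η) = η := fun η => by rw [hU, UK_left]
  have hRU : ∀ a b v, R₁ a (R₂ b (adjoint U v)) =
      adjoint U ((FS.mat κ (N × N)).R (a, b) v) := fun a b v => by rw [hU, R_adj_UK]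
  have hUR : ∀ a b η, (FS.mat κ (N × N)).R (a, b) (U η) = U (R₁ a (R₂ b η)) :=
    fun a b η => by rw [hU, UK_R]
  obtain ⟨e, he⟩ : ∃ e : Ell2 (κ × (N × N)) →L[ℂ] Ell2 (κ × (N × N)), e = U.comp (adjoint U) :=
    ⟨_, rfl⟩
  have hev : ∀ v, e v = U (adjoint U v) := fun v => by rw [he]; rfl
  have heP : Pj (H58.Rs κ (N × N)) e := by
    refine ⟨?_, ?_, ?_⟩
    · rintro _ ⟨⟨a, b⟩, rfl⟩
      ext1 v
      change e ((FS.mat κ (N × N)).R (a, b) v) = (FS.mat κ (N × N)).R (a, b) (e v)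
      rw [hev, hev, hUR, hRU]
    · rw [he, adjoint_comp, adjoint_adjoint]
    · ext1 v
      change e (e v) = e v
      rw [hev, hev, hUU]
  have hle : tq (fun i : κ => dl (i, ((1, 1) : N × N))) e ≤ Fintype.card κ := by
    have h1 : ∀ i : κ, ‖e (dl (i, ((1, 1) : N × N)))‖ ^ 2 ≤ 1 := by
      intro i
      have h2 := (H962.Eq.proj_norm_le heP.adj heP.sq (dl (i, ((1, 1) : N × N)))).2
      rw [norm_dl] at h2
      exact pow_le_one₀ (norm_nonneg _) h2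
    refine (Finset.sum_le_sum fun i _ => h1 i).trans (le_of_eq ?_)
    simp
  obtain ⟨f, hf, hft⟩ := exists_pj (N := N) (κ := κ) (tq_nonneg _) hle
  have hfC : Cc (H58.Rs κ (N × N)) f := by
    rintro _ ⟨y, rfl⟩
    exact hf.cc _ (Or.inl ⟨y, rfl⟩)
  have hE : ∀ {x : Ell2 (κ × (N × N)) →L[ℂ] Ell2 (κ × (N × N))}, Cc (H58.Rs κ (N × N)) x →
      Eqv (FS.mat κ (N × N)).R (FS.mat κ (N × N)).R x := fun h => eqv_of fun y => h _ ⟨y, rfl⟩
  obtain ⟨w, hw, hww, hww'⟩ := exists_equiv (S := H58.Rs κ (N × N)) (H58.star_Rs)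
    (H58.fac (icc_prod hN)) (ξ := fun i : κ => dl (i, ((1, 1) : N × N)))
    (fun x y hx hy => (FS.mat κ (N × N)).tr_comm (FS.mat κ (N × N)) (hE hy) (hE hx))
    (fun x hx h => (FS.mat κ (N × N)).ext_base (FS.mat κ (N × N)) (hE hx) (fun s u => by
      rw [ContinuousLinearMap.zero_apply, ContinuousLinearMap.zero_apply, map_zero]) fun i => by
      rw [ContinuousLinearMap.zero_apply]
      exact h i) hfC heP.cc hf.adj heP.adj hf.sq heP.sq (by
        have h1 : ∀ {g : Ell2 (κ × (N × N)) →L[ℂ] Ell2 (κ × (N × N))}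
            {S : Set (Ell2 (κ × (N × N)) →L[ℂ] Ell2 (κ × (N × N)))}, Pj S g →
            ∑ i : κ, ⟪(dl (i, ((1, 1) : N × N)) : Ell2 (κ × (N × N))),
              g (dl (i, ((1, 1) : N × N)))⟫_ℂ =
              ((tq (fun i : κ => dl (i, ((1, 1) : N × N))) g : ℝ) : ℂ) := by
          intro g S hg
          rw [tq]
          push_cast
          refine Finset.sum_congr rfl fun i _ => ?_
          rw [hg.norm]
          push_cast
          rfl
        rw [h1 hf, h1 heP, hft])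
  have hwR : ∀ a b v, (FS.mat κ (N × N)).R (a, b) (adjoint w v) =
      adjoint w ((FS.mat κ (N × N)).R (a, b) v) := fun a b v =>
    (congrArg (fun T : Ell2 (κ × (N × N)) →L[ℂ] Ell2 (κ × (N × N)) => T v)
      (H962.Eq.Cc.adj H58.star_Rs hw _ ⟨(a, b), rfl⟩)).symm
  have hwwv : ∀ v, adjoint w (w v) = e v := fun v =>
    congrArg (fun T : Ell2 (κ × (N × N)) →L[ℂ] Ell2 (κ × (N × N)) => T v) hww
  have hwwv' : ∀ v, w (adjoint w v) = f v := fun v =>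
    congrArg (fun T : Ell2 (κ × (N × N)) →L[ℂ] Ell2 (κ × (N × N)) => T v) hww'
  set ζ : κ → ℋ := fun i => adjoint U (adjoint w (dl (i, ((1, 1) : N × N)))) with hζ
  have hval : ∀ a b i, R₁ a (R₂ b (ζ i)) = adjoint U (adjoint w (dl (i, (a⁻¹, b⁻¹)))) := by
    intro a b i
    rw [hζ]
    change R₁ a (R₂ b (adjoint U (adjoint w (dl (i, ((1, 1) : N × N)))))) = _
    rw [hRU, hwR, mat_dl', one_mul, one_mul]
  have frame : ∀ η : ℋ, HasSum (fun p : κ × N × N =>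
      ‖⟪R₁ p.2.1 (R₂ p.2.2 (ζ p.1)), η⟫_ℂ‖ ^ 2) (‖η‖ ^ 2) := by
    intro η
    have h1 : HasSum (fun z => ‖w (U η) z‖ ^ 2) (‖w (U η)‖ ^ 2) := by
      rw [norm_sq]
      exact (summable_sq _).hasSum
    have h2 : ‖w (U η)‖ ^ 2 = ‖η‖ ^ 2 := by
      have h3 : ⟪w (U η), w (U η)⟫_ℂ = ⟪η, η⟫_ℂ := by
        rw [← adjoint_inner_right, hwwv, hev, hUU, ← adjoint_inner_right, hUU]
      rw [inner_self_eq_norm_sq_to_K, inner_self_eq_norm_sq_to_K] at h3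
      exact_mod_cast h3
    rw [h2] at h1
    let E : κ × N × N ≃ κ × (N × N) := Equiv.prodCongr (Equiv.refl κ)
      (Equiv.prodCongr (Equiv.inv N) (Equiv.inv N))
    refine (E.hasSum_iff.2 h1).congr_fun ?_ |> id
    rintro ⟨i, a, b⟩
    change ‖⟪R₁ a (R₂ b (ζ i)), η⟫_ℂ‖ ^ 2 = ‖w (U η) (i, (a⁻¹, b⁻¹))‖ ^ 2
    rw [hval, adjoint_inner_left, adjoint_inner_left, inner_dl]
  refine ⟨ζ, ⟨hT.adjV, hT.adj₁, hT.adj₂, hT.comm₁, hT.comm₂, hT.comm₁₂, ?_, frame⟩, ?_⟩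
  · by_contra hcon
    push Not at hcon
    obtain ⟨k, hk⟩ := hT.ne
    apply hk
    have h1 := frame (ξ k)
    simp only [hcon, map_zero, inner_zero_left, norm_zero] at h1
    have h2 := h1.unique (by
      have : (fun _ : κ × N × N => (0 : ℝ) ^ 2) = fun _ => 0 := by
        funext _; ring
      rw [this]
      exact hasSum_zero)
    exact norm_eq_zero.1 (pow_eq_zero_iff two_ne_zero |>.mp h2)
  · intro g hg h i j
    rw [hval]
    change ⟪adjoint U (adjoint w (dl (i, (g⁻¹, h⁻¹)))),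
      adjoint U (adjoint w (dl (j, ((1, 1) : N × N))))⟫_ℂ = 0
    rw [adjoint_inner_left, ← hev, adjoint_inner_left, ← hwwv, hwwv', hwwv', ← ap_mul, hf.sq,
      inner_dl]
    have h1 : f (dl (j, ((1, 1) : N × N))) = Id1 κ (1 : N) (f (dl (j, ((1, 1) : N × N)))) := by
      conv_lhs => rw [← Id1_dl j]
      exact congrArg (fun T : Ell2 (κ × (N × N)) →L[ℂ] Ell2 (κ × (N × N)) =>
        T (dl (j, ((1, 1) : N × N)))) (hf.cc _ (Or.inr ⟨1, rfl⟩))
    rw [h1, Id1_ap, i1, Set.indicator_apply, if_neg (by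
      intro h2
      exact hg (inv_eq_one.1 h2))]
    simp

/-- the same in the letters of `H678.OV` -/
theorem htri_of_gtri [Infinite N] (hN : Icc N) (h : GTri V R₁ R₂) : HTri V R₁ R₂ := by
  obtain ⟨κ, _, ξ, hT⟩ := h
  obtain ⟨ζ, h1, h2⟩ := hon_of_tri hN hT
  exact ⟨κ, inferInstance, ζ, h1, h2⟩

end hon

end Vale.Agent.P092.H458.OV
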