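import Vale.Agent.P092.H458.O.Gen
import Vale.Agent.P092.SPT.Fin

/-!
P092 (helper458), [OV], row (O-P): the core statement `H678.OV.OverStmt` of every admissible source
group over `Sp_4(k)`, from an irreducible system instead of the model.
-/

set_option linter.all false

open scoped InnerProductSpace ENNReal LinearAlgebra.Projectivization
open Filter Topology ContinuousLinearMap MeasureTheory TopologicalSpace

namespace Vale.Agent.P092.H458.OV.P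

open Vale.Agent.P092.SR (Tri)
open Vale.Agent.P092.H678.OV (Sys Hsq HTri GTri OverV OverStmt Icc)
open Vale.Agent.P092.RC (PG YY y0 PicF)
open Vale.Agent.P092.SP (B1 B2 Adm PH nm Lg Sh' nc_E ph_lift fin_lift inj_lift prox1_lift prox2_lift
  nis_lift1 nis_lift2 nis1_sub nis2_sub GapStmt gapStmt)
open Vale.Agent.P092.SP4
open Vale.Agent.P092.SP.X (PBF HasLegF ORBF legF_of WallInF clegs_of OneX oneX_real oneX_ultra)
open Vale.Agent.P092.H933 (LeviGap LocK)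
open Vale.Agent.P092.H859.CL (st)
open Vale.Agent.P092.H34.Ind (Xset)
open Vale.Agent.P092.H71.P (r1 r2 Sh'_cont Lg_cont adm_proper spr1_sh' spr1_lg spr2_lg₀ spr2_sh'₀)
open Vale.Agent.P092.H790.CTA (SIZEG)
open Vale.Agent.P092.SD (MsF UC)
open Vale.Agent.P092.H725.SN (flt_Dq Dq_le Dq)
open Vale.Agent.P092.H21 (Hon mT leg_T slow_T loc2_T uc_T)
open Vale.Agent.P092.H85 (cdat)
open Vale.Agent.P092.H35 (sp)
open Vale.Agent.P092.H684.Psp (PSp4)

section conc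

variable {k : Type} [NontriviallyNormedField k] [ProperSpace k] [MeasurableSpace k] [BorelSpace k]
  {μ : Measure k} [μ.IsAddHaarMeasure]
  {E : Type} [Group E] [TopologicalSpace E] [IsTopologicalGroup E] [LocallyCompactSpace E]
  [SecondCountableTopology E] [T2Space E] [MeasurableSpace E] [BorelSpace E]
  {Γ : Subgroup E} [DiscreteTopology Γ] [Countable Γ] [MeasurableSpace (E ⧸ Γ)]
  [BorelSpace (E ⧸ Γ)] {ν : Measure (E ⧸ Γ)} [IsProbabilityMeasure ν]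
  (hν : ∀ g : E, ν.map (fun x => g • x) = ν)
  (hΓ : ∀ g : Γ, g ≠ 1 → Set.Infinite {y : Γ | ∃ h, y = h * g * h⁻¹})
  {ℋ κ κ' : Type} [Fintype κ] [Fintype κ'] [NormedAddCommGroup ℋ] [InnerProductSpace ℂ ℋ]
  [CompleteSpace ℋ] {V R₁ R₂ : Γ →* (ℋ →L[ℂ] ℋ)} {ξ : κ → ℋ} {ξ' : κ' → ℋ}
  (hS : Sys V R₁ R₂) (hT : Tri V R₁ R₂ ξ) (hT' : Tri R₁ V R₂ ξ') (hh : Hon R₁ R₂ ξ)
  {ι : S4 k →* E} {a : E →* PG k 4} {q : Γ → S4 k} {w : kˣ}

include hΓ hT' hh in
theorem ms_sys :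
    MsF (H34.Ind.lam (cdat ν hν) R₁)
      (Xset (cdat ν hν) ℋ ∪ Set.range (H34.Ind.lam (cdat ν hν) R₂))
      (H34.AmpE.nrm hν ξ) (st (mT (cdat ν hν) hT)) :=
  H458.HalfT.msF_E (cdat ν hν) hT hh hT' hΓ (RC.nrm_ne hT.ne)

include hΓ hS hT' hh in
/-- **Sizes.** -/
theorem size_sys (hq : PH q) {b : E} (hb : LeviGap b) (i : κ) :
    SIZEG b (H34.Ind.pi (cdat ν hν) (V := V) hT.adjV) (H34.AmpE.nrm hν ξ i)
      (st (mT (cdat ν hν) hT)) fun γ => nm (q γ) := by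
  have hM := H421.GrT.MskL.of_msF (ms_sys hν hΓ hT hT' hh)
  exact H421.GrT.sz3_exp_exp hM (σ := fun γ => nm (q γ))
    (size_of hν hS hT hM (flt_Dq (q := fun γ => (q γ).1) hq)
      (fun J γ hγ => (le_max_left _ _).trans (Dq_le (q := fun γ => (q γ).1) hq J γ hγ)) hb i)

include hT hT' in
theorem orb_sys (h : Adm ι a) {b : S4 k} {n : k → S4 k} {ρ : ℝ} (h0 : 0 < ρ) (h1 : ρ < 1)
    (hn : Continuous n) (hs : H368.SN.Spr μ (ι b) (fun s => ι (n s)) ρ) :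
    ORBF μ ι (H34.Ind.pi (cdat ν hν) (V := V) hT.adjV) (H34.Ind.lam (cdat ν hν) R₁)
      (Xset (cdat ν hν) ℋ ∪ Set.range (H34.Ind.lam (cdat ν hν) R₂))
      (H34.AmpE.nrm hν ξ) b n :=
  ⟨ρ, h0, h1, orb_of (μ := μ) hν (h.cι.comp hn) hs hT hT'⟩

include hΓ hS hT' hh in
/-- **The base record of the first leg of an irreducible system.** -/
theorem pbf_sys (h : Adm ι a) (hw : ‖(w : k)‖ < 1) {𝒰 : Ultrafilter ℕ}
    (h𝒰 : (𝒰 : Filter ℕ) ≤ atTop) (g1 : LeviGap (ι (B1 w))) (g2 : LeviGap (ι (B2 w)))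
    (hq : ∀ γ, ι (q γ) = γ) :
    PBF μ w 𝒰 ι a (H34.Ind.pi (cdat ν hν) (V := V) hT.adjV) (H34.Ind.lam (cdat ν hν) R₁)
      (Xset (cdat ν hν) ℋ ∪ Set.range (H34.Ind.lam (cdat ν hν) R₂))
      (H34.AmpE.nrm hν ξ) (st (mT (cdat ν hν) hT)) q := by
  have hph := ph_lift h hq
  have hfin := fin_lift h hq
  exact
    { adm := h
      hw := hw
      h𝒰 := h𝒰
      pic := pic_of hν hS hT hT'
      ms := ms_sys hν hΓ hT hT' hh
      uc := uc_T hν hT
      ph := hph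
      fin := hfin
      ud := H899.T.ud_of_fin hph hfin
      orb1 := orb_sys hν hT hT' h (r1 w hw).1 (r1 w hw).2 Sh'_cont (spr1_sh' (adm_proper h) w)
      orb1' := orb_sys hν hT hT' h (r2 w hw).1 (r2 w hw).2 Lg_cont (spr1_lg (adm_proper h) w)
      orb2 := orb_sys hν hT hT' h (r2 w hw).1 (r2 w hw).2 Lg_cont (spr2_lg₀ (adm_proper h) w)
      orb2' := orb_sys hν hT hT' h (r2 w hw).1 (r2 w hw).2 Sh'_cont (spr2_sh'₀ (adm_proper h) w)
      size1 := size_sys hν hΓ hS hT hT' hh hph g1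
      size2 := size_sys hν hΓ hS hT hT' hh hph g2
      prox1 := prox1_lift h hν hq
      prox2 := prox2_lift h hν hq
      nis1 := nis_lift1 h hν hq nis1_sub
      nis2 := nis_lift2 h hν hq nis2_sub }

include hΓ hS hT' hh in
/-- **The first leg of an irreducible system.** -/
theorem legF_sys (hk : LocK k) (h : Adm ι a) (hw : ‖(w : k)‖ < 1) {𝒰 : Ultrafilter ℕ}
    (h𝒰 : (𝒰 : Filter ℕ) ≤ atTop) (g1 : LeviGap (ι (B1 w))) (g2 : LeviGap (ι (B2 w)))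
    (hq : ∀ γ, ι (q γ) = γ) :
    HasLegF μ w 𝒰 ι a (H34.Ind.pi (cdat ν hν) (V := V) hT.adjV) (H34.Ind.lam (cdat ν hν) R₁)
      (Xset (cdat ν hν) ℋ ∪ Set.range (H34.Ind.lam (cdat ν hν) R₂))
      (H34.AmpE.nrm hν ξ) (st (mT (cdat ν hν) hT)) q := by
  have hb := pbf_sys (μ := μ) hν hΓ hS hT hT' hh h hw h𝒰 g1 g2 hq
  have w1 := H21.P.wall1 hν hT hΓ hT' hh h hk hw hb.ph hb.fin
  have w2 := H21.P.wall2 hν hT hΓ hT' hh h hk hw hb.ph hb.fin
  exact legF_of hb (leg_T (cdat ν hν) hT hh hΓ hT')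
    (slow_T (cdat ν hν) hT hΓ hT' hh (H43.ccont_cdat ν hν))
    (loc2_T (cdat ν hν) hT hΓ hT' hh) ⟨w1.s12, w1.s21, w1.esc⟩ ⟨w2.s12, w2.s21, w2.esc⟩

end conc

/-- **The core statement for irreducible systems, every admissible source group.** -/
theorem overStmt_of {k : Type} [NontriviallyNormedField k] [ProperSpace k] [MeasurableSpace k]
    [BorelSpace k] {μ : Measure k} [μ.IsAddHaarMeasure] {E : Type} [Group E] [TopologicalSpace E]
    [IsTopologicalGroup E] [LocallyCompactSpace E] [SecondCountableTopology E] [T2Space E]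
    {ι : S4 k →* E} {a : E →* PG k 4} (hk : LocK k) (h : Adm ι a) (hg : GapStmt k)
    (hOne : SP.X.OneStmt k μ) (hCls : SP.X.ClsStmt k μ) (hXC : SP.X.XCStmt k) : OverStmt E := by
  intro Γ hΓ hicc ℋ _ _ _ V R₁ R₂ hS
  letI : MeasurableSpace E := borel _
  haveI : BorelSpace E := ⟨rfl⟩
  haveI hd : DiscreteTopology Γ := hΓ.disc
  haveI hc : Countable Γ := H790.countable_of_discrete (E := E) Γ
  letI : MeasurableSpace (E ⧸ Γ) := borel _
  haveI : BorelSpace (E ⧸ Γ) := ⟨rfl⟩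
  obtain ⟨ν, hP', hν⟩ := H515.IsLattice.exists_prob (Λ := Γ) ⟨hΓ.disc, hΓ.covol⟩
  haveI := nc_E h
  obtain ⟨x, hx0, hx1⟩ := NormedField.exists_norm_lt_one k
  have hx : x ≠ 0 := norm_pos_iff.1 hx0
  have hw : ‖((Units.mk0 x hx : kˣ) : k)‖ < 1 := hx1
  have hq : ∀ γ : Γ, ι (Function.surjInv h.sur (γ : E)) = γ := fun γ =>
    Function.surjInv_eq h.sur _
  obtain ⟨κ₁, _, ξ₁, T₁, H₁⟩ := hS.t₁
  obtain ⟨κ₂, _, ξ₂, T₂, H₂⟩ := hS.t₂
  obtain ⟨κ₃, _, ζ₁, G₁⟩ := hS.g₁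
  obtain ⟨κ₄, _, ζ₂, G₂⟩ := hS.g₂
  obtain ⟨I', hI, ⟨b⟩⟩ := H264.Amp.exists_basis (H264.Amp.pars_of_tri T₁)
  have g1 := H684.Psp.leviGap_proper ι h.cι h.sur (hg _ hw).1
  have g2 := H684.Psp.leviGap_proper ι h.cι h.sur (hg _ hw).2
  have l1 := legF_sys (μ := μ) (q := fun γ : Γ => Function.surjInv h.sur (γ : E)) hν hicc hS T₁ G₁
    H₁ hk h hw (𝒰 := hyperfilter ℕ) Nat.hyperfilter_le_atTop g1 g2 hq
  have l2 := legF_sys (μ := μ) (q := fun γ : Γ => Function.surjInv h.sur (γ : E)) hν hicc hS.swap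
    T₂ G₂ H₂ hk h hw (𝒰 := hyperfilter ℕ) Nat.hyperfilter_le_atTop g1 g2 hq
  obtain ⟨Q₁, Q₂, h1, h2, h12⟩ := clegs_of hOne hCls hXC (pic2_of hν hS T₁)
    (SNT.tv_tri hν T₁.adjV b T₁) l1 l2 (inj_lift h hq hicc) (inj_lift h hq hicc)
  exact H264.Amp.over_of_legs hν T₁ (X := Xset (cdat ν hν) ℋ) (fun S hS => ⟨S, hS, rfl⟩)
    h1 h2 h12

/-- **`OverStmt` for every admissible source group of `Sp_4(k)`.** -/
theorem overStmt_adm {k : Type} [NontriviallyNormedField k] [ProperSpace k]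
    (hk : H933.LocK k) (h2 : (2 : k) ≠ 0) (hOne : OneX k) {E : Type} [Group E]
    [TopologicalSpace E] [IsTopologicalGroup E] [LocallyCompactSpace E]
    [SecondCountableTopology E] [T2Space E] {ι : S4 k →* E} {a : E →* PG k 4} (h : Adm ι a) :
    OverStmt E := by
  letI : MeasurableSpace k := borel k
  haveI : BorelSpace k := ⟨rfl⟩
  exact overStmt_of (μ := (Measure.addHaar : Measure k)) hk h (gapStmt h2) (hOne _)
    (SP.X.clsStmt _) (H325.xcStmtPX k)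

/-- **`OverStmt (PSp_4(ℝ))`.** -/
theorem overStmt_pspR : OverStmt (PSp4 ℝ) :=
  overStmt_adm (.real (RingEquiv.refl ℝ) fun _ => rfl) two_ne_zero oneX_real
    (H714.AdmS4.adm_quo _ (H684.Psp.scc ℝ))

/-- **`OverStmt (PSp_4(k))`**, `k` ultrametric with `2 ≠ 0`. -/
theorem overStmt_pspU {k : Type} [NontriviallyNormedField k] [ProperSpace k]
    (hu : IsUltrametricDist k) (h2 : (2 : k) ≠ 0) : OverStmt (PSp4 k) :=
  overStmt_adm (.ultra hu) h2 (oneX_ultra hu h2) (H714.AdmS4.adm_quo _ (H684.Psp.scc k))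

end Vale.Agent.P092.H458.OV.P
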