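import Vale.Agent.P092.H962.EqP

/-!
P092 (helper458), [OV], [HON-N], part 1: in a commutant with a finite trace and without minimal
projections there is a projection of every trace.
-/

set_option linter.all false

open scoped InnerProductSpace
open Filter Topology ContinuousLinearMap

namespace Vale.Agent.P092.H458.OV

open Vale.Agent.P092.H962.Eq

variable {H : Type} [NormedAddCommGroup H] [InnerProductSpace ℂ H] [CompleteSpace H]

/-- a projection of the commutant -/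
structure Pj (S : Set (H →L[ℂ] H)) (e : H →L[ℂ] H) : Prop where
  cc : Cc S e
  adj : adjoint e = e
  sq : e * e = e

variable {S : Set (H →L[ℂ] H)} {e f g x y : H →L[ℂ] H}

theorem ap_mul (x y : H →L[ℂ] H) (v : H) : (x * y) v = x (y v) := rfl

theorem Pj.ap (he : Pj S e) (v : H) : e (e v) = e v := by
  rw [← ap_mul, he.sq]

theorem Pj.norm (he : Pj S e) (v : H) : ⟪v, e v⟫_ℂ = (‖e v‖ ^ 2 : ℝ) := by
  have h1 : ⟪e v, e v⟫_ℂ = ⟪v, e v⟫_ℂ := by
    rw [← adjoint_inner_right, he.adj, he.ap]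
  rw [← h1, inner_self_eq_norm_sq_to_K]
  norm_cast

/-- an operator with vanishing quadratic form is zero -/
theorem eq_zero_of_form {x : H →L[ℂ] H} (hx : adjoint x = x) (h : ∀ v, (⟪v, x v⟫_ℂ).re = 0) :
    x = 0 := by
  have h1 : (x : H →ₗ[ℂ] H) = 0 := by
    rw [← inner_map_self_eq_zero]
    intro v
    have h2 : (starRingEnd ℂ) ⟪v, x v⟫_ℂ = ⟪v, x v⟫_ℂ := by
      rw [inner_conj_symm, ← adjoint_inner_right, hx]
    have h3 : ⟪v, x v⟫_ℂ = 0 := Complex.ext (h v) (Complex.conj_eq_iff_im.1 h2)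
    change ⟪x v, v⟫_ℂ = 0
    rw [← inner_conj_symm, h3, map_zero]
  ext1 v
  exact LinearMap.congr_fun h1 v

theorem pos_ker {b : H →L[ℂ] H} (hb : IsSelfAdjoint b) {v : H} (hv : b v = 0) : b⁺ v = 0 := by
  have h1 : b⁺ * b = b⁺ * b⁺ := by
    calc b⁺ * b = b⁺ * (b⁺ - b⁻) := by rw [CFC.posPart_sub_negPart b hb]
      _ = b⁺ * b⁺ := by rw [mul_sub, CFC.posPart_mul_negPart, sub_zero]
  have h2 : b⁺ (b⁺ v) = 0 := by
    rw [← ap_mul, ← h1, ap_mul, hv, map_zero]
  have h3 : adjoint b⁺ = b⁺ := (CFC.posPart_nonneg b).isSelfAdjoint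
  have h4 : ⟪b⁺ v, b⁺ v⟫_ℂ = 0 := by
    rw [← adjoint_inner_right, h3, h2, inner_zero_right]
  exact inner_self_eq_zero.1 h4

theorem neg_ker {b : H →L[ℂ] H} (hb : IsSelfAdjoint b) {v : H} (hv : b v = 0) : b⁻ v = 0 := by
  have h1 := pos_ker hb hv
  have h2 := congrArg (fun T : H →L[ℂ] H => T v) (CFC.posPart_sub_negPart b hb)
  change b⁺ v - b⁻ v = b v at h2
  rw [h1, hv, zero_sub, neg_eq_zero] at h2
  exact h2

/-- **A selfadjoint operator under a projection which is not scalar there gives a proper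
subprojection.** -/
theorem sub_of_ne (hS : ∀ s ∈ S, adjoint s ∈ S) (he : Pj S e) (he0 : e ≠ 0) (hy : Cc S y)
    (hya : adjoint y = y) (h1 : e * y = y) (h2 : y * e = y) (hn : ∀ c : ℝ, y ≠ (c : ℂ) • e) :
    ∃ q, Pj S q ∧ e * q = q ∧ q ≠ 0 ∧ q ≠ e := by
  have hform : ∀ (c : ℝ) (v : H), (⟪v, (y - (c : ℂ) • e) v⟫_ℂ).re =
      (⟪v, y v⟫_ℂ).re - c * ‖e v‖ ^ 2 := by
    intro c v
    change (⟪v, y v - (c : ℂ) • e v⟫_ℂ).re = _
    rw [inner_sub_right, inner_smul_right, he.norm, Complex.sub_re, ← Complex.ofReal_mul,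
      Complex.ofReal_re]
  have hbd : ∀ v, |(⟪v, y v⟫_ℂ).re| ≤ ‖y‖ * ‖e v‖ ^ 2 := by
    intro v
    have e1 : ⟪v, y v⟫_ℂ = ⟪e v, y (e v)⟫_ℂ := by
      rw [← adjoint_inner_right, he.adj, ← ap_mul, ← ap_mul, h1, h2]
    rw [e1]
    refine (Complex.abs_re_le_norm _).trans ((norm_inner_le_norm _ _).trans ?_)
    calc ‖e v‖ * ‖y (e v)‖ ≤ ‖e v‖ * (‖y‖ * ‖e v‖) := by
          gcongr
          exact y.le_opNorm _
      _ = _ := by ring
  obtain ⟨v₀, hv₀⟩ : ∃ v, e v ≠ 0 := by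
    by_contra h
    push Not at h
    exact he0 (by ext1 v; exact h v)
  have hv₀' : 0 < ‖e v₀‖ ^ 2 := by positivity
  obtain ⟨c, hc1, hc2⟩ : ∃ c : ℝ, ¬ (∀ v, (⟪v, y v⟫_ℂ).re ≤ c * ‖e v‖ ^ 2) ∧
      ¬ (∀ v, c * ‖e v‖ ^ 2 ≤ (⟪v, y v⟫_ℂ).re) := by
    by_contra hcon
    push Not at hcon
    have hcon : ∀ c : ℝ, (∀ v, (⟪v, y v⟫_ℂ).re ≤ c * ‖e v‖ ^ 2) ∨
        (∀ v, c * ‖e v‖ ^ 2 ≤ (⟪v, y v⟫_ℂ).re) := by
      intro c
      by_cases h : ∀ v, (⟪v, y v⟫_ℂ).re ≤ c * ‖e v‖ ^ 2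
      · exact Or.inl h
      · push Not at h
        exact Or.inr (hcon c h)
    set A : Set ℝ := {c | ∀ v, c * ‖e v‖ ^ 2 ≤ (⟪v, y v⟫_ℂ).re} with hA
    have hne : A.Nonempty := ⟨-‖y‖, fun v => by
      have := (abs_le.1 (hbd v)).1
      linarith⟩
    have hba : BddAbove A := ⟨‖y‖, fun c hc => by
      have h3 := hc v₀
      have h4 := (abs_le.1 (hbd v₀)).2
      exact le_of_mul_le_mul_right (h3.trans h4) hv₀'⟩
    refine hn (sSup A) ?_
    have h3 : ∀ v, sSup A * ‖e v‖ ^ 2 ≤ (⟪v, y v⟫_ℂ).re := by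
      intro v
      rcases (sq_nonneg ‖e v‖).eq_or_lt with h0 | h0
      · have := (abs_le.1 (hbd v)).1
        rw [← h0] at this ⊢
        linarith
      · rw [← le_div_iff₀ h0]
        exact csSup_le hne fun c hc => by
          rw [le_div_iff₀ h0]
          exact hc v
    have h4 : ∀ v, (⟪v, y v⟫_ℂ).re ≤ sSup A * ‖e v‖ ^ 2 := by
      intro v
      refine le_of_forall_pos_le_add fun ε hε => ?_
      have h5 : sSup A + ε / (‖e v‖ ^ 2 + 1) ∉ A := fun h => by
        have h6 := le_csSup hba h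
        have h7 : 0 < ε / (‖e v‖ ^ 2 + 1) := by positivity
        linarith
      have h6 := (hcon (sSup A + ε / (‖e v‖ ^ 2 + 1))).resolve_right h5 v
      refine h6.trans ?_
      have h7 : ε / (‖e v‖ ^ 2 + 1) * ‖e v‖ ^ 2 ≤ ε := by
        rw [div_mul_eq_mul_div, div_le_iff₀ (by positivity)]
        nlinarith [sq_nonneg ‖e v‖]
      linarith
    refine sub_eq_zero.1 (eq_zero_of_form ?_ fun v => ?_)
    · rw [map_sub, hya, map_smulₛₗ, he.adj, Complex.conj_ofReal]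
    · rw [hform]
      have := h3 v
      have := h4 v
      linarith
  set b : H →L[ℂ] H := y - (c : ℂ) • e with hb
  have hba : IsSelfAdjoint b := by
    change adjoint b = b
    rw [hb, map_sub, hya, map_smulₛₗ, he.adj, Complex.conj_ofReal]
  have hbC : Cc S b := by
    intro s hs
    rw [hb, sub_mul, mul_sub, hy s hs, smul_mul_assoc, mul_smul_comm, he.cc s hs]
  have hpC : Cc S b⁺ := fun s hs => (show Commute b s from hbC s hs).cfcₙ_real _
  have hp0 : b⁺ ≠ 0 := by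
    intro h
    refine hc1 fun v => ?_
    have h3 : b ≤ 0 := (CFC.posPart_eq_zero_iff b hba).1 h
    have h4 := (ContinuousLinearMap.le_def _ _).1 h3
    have h5 := h4.re_inner_nonneg_right v
    rw [zero_sub] at h5
    change 0 ≤ (⟪v, -(b v)⟫_ℂ).re at h5
    rw [inner_neg_right, Complex.neg_re, hform] at h5
    linarith
  have hm0 : b⁻ ≠ 0 := by
    intro h
    refine hc2 fun v => ?_
    have h3 : 0 ≤ b := (CFC.negPart_eq_zero_iff b hba).1 h
    have h4 := (ContinuousLinearMap.le_def _ _).1 h3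
    have h5 := h4.re_inner_nonneg_right v
    rw [sub_zero] at h5
    change 0 ≤ (⟪v, b v⟫_ℂ).re at h5
    rw [hform] at h5
    linarith
  have hpa : adjoint b⁺ = b⁺ := (CFC.posPart_nonneg b).isSelfAdjoint
  have hma : adjoint b⁻ = b⁻ := (CFC.negPart_nonneg b).isSelfAdjoint
  set K : Submodule ℂ H := LinearMap.ker ((b⁺ : H →L[ℂ] H) : H →ₗ[ℂ] H) with hK
  have hKm : ∀ v, v ∈ K ↔ b⁺ v = 0 := fun v => by rw [hK, LinearMap.mem_ker]; rfl
  haveI : CompleteSpace Kᗮ := K.isClosed_orthogonal.completeSpace_coe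
  have hmap : ∀ s, b⁺ * s = s * b⁺ → ∀ v ∈ K, s v ∈ K := by
    intro s hs v hv
    rw [hKm] at hv ⊢
    rw [← ap_mul, hs, ap_mul, hv, map_zero]
  have hmap' : ∀ s ∈ S, ∀ v ∈ Kᗮ, s v ∈ Kᗮ := by
    intro s hs v hv
    rw [Submodule.mem_orthogonal] at hv ⊢
    intro u hu
    rw [← adjoint_inner_left]
    exact hv _ (hmap _ (hpC _ (hS s hs)) u hu)
  have hq : Pj S Kᗮ.starProjection := ⟨fun s hs =>
    comm_starProjection (hmap' s hs) (hmap' _ (hS s hs)), adj_starProjection _,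
    sq_starProjection _⟩
  have hek : ∀ v, b (v - e v) = 0 := by
    intro v
    have h3 : b * e = b := by rw [hb, sub_mul, h2, smul_mul_assoc, he.sq]
    rw [map_sub, ← ap_mul, h3, sub_self]
  refine ⟨Kᗮ.starProjection, hq, ?_, ?_, ?_⟩
  · ext1 u
    have h3 : Kᗮ.starProjection u ∈ Kᗮ := Submodule.starProjection_apply_mem _ _
    have h4 : ∀ v, ⟪v, Kᗮ.starProjection u - e (Kᗮ.starProjection u)⟫_ℂ = 0 := by
      intro v
      have h5 : v - e v ∈ K := (hKm _).2 (pos_ker hba (hek v))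
      have h6 := (Submodule.mem_orthogonal _ _).1 h3 _ h5
      rw [inner_sub_left] at h6
      rw [inner_sub_right, ← h6]
      congr 1
      rw [← adjoint_inner_right, he.adj]
    have h5 := inner_self_eq_zero.1 (h4 (Kᗮ.starProjection u - e (Kᗮ.starProjection u)))
    exact (sub_eq_zero.1 h5).symm
  · intro h
    apply hp0
    ext1 v
    have h3 : b⁺ v ∈ Kᗮ := by
      rw [Submodule.mem_orthogonal]
      intro u hu
      rw [← adjoint_inner_left, hpa, (hKm u).1 hu, inner_zero_left]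
    have h4 : Kᗮ.starProjection (b⁺ v) = b⁺ v := Submodule.starProjection_eq_self_iff.2 h3
    rw [h] at h4
    exact h4.symm
  · intro h
    apply hm0
    ext1 v
    have h3 : ∀ w, b⁻ (Kᗮ.starProjection w) = 0 := by
      intro w
      have h4 : Kᗮ.starProjection w ∈ Kᗮ := Submodule.starProjection_apply_mem _ _
      refine (inner_self_eq_zero (𝕜 := ℂ)).1 ?_
      rw [← adjoint_inner_left, hma]
      have h5 : b⁻ (b⁻ (Kᗮ.starProjection w)) ∈ K := by
        rw [hKm, ← ap_mul, CFC.posPart_mul_negPart]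
        rfl
      exact (Submodule.mem_orthogonal _ _).1 h4 _ h5
    have h4 : b⁻ v = b⁻ (e v) + b⁻ (v - e v) := by
      rw [← map_add]
      congr 1
      abel
    rw [h4, neg_ker hba (hek v), ← h, h3, add_zero]
    rfl

/-! ### Projections of every trace -/

section tr

variable {ι : Type} [Fintype ι] {ξ : ι → H}

/-- the trace of a projection -/
noncomputable def tq (ξ : ι → H) (e : H →L[ℂ] H) : ℝ := ∑ i, ‖e (ξ i)‖ ^ 2

theorem tq_nonneg (e : H →L[ℂ] H) : 0 ≤ tq ξ e := Finset.sum_nonneg fun _ _ => by positivity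

theorem Pj.sub (he : Pj S e) (hf : Pj S f) (h : e * f = f) : Pj S (e - f) := by
  have h' : f * e = f := by
    have := congrArg adjoint h
    rwa [adj_mul', he.adj, hf.adj] at this
  refine ⟨he.cc.sub hf.cc, by rw [map_sub, he.adj, hf.adj], ?_⟩
  rw [sub_mul, mul_sub, mul_sub, he.sq, h, h', hf.sq, sub_self, sub_zero]

theorem tq_sub (he : Pj S e) (hf : Pj S f) (h : e * f = f) : tq ξ (e - f) = tq ξ e - tq ξ f := by
  rw [tq, tq, tq, ← Finset.sum_sub_distrib]
  refine Finset.sum_congr rfl fun i _ => ?_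
  have h1 := (he.sub hf h).norm (ξ i)
  have h2 := he.norm (ξ i)
  have h3 := hf.norm (ξ i)
  have h4 : ⟪ξ i, (e - f) (ξ i)⟫_ℂ = ⟪ξ i, e (ξ i)⟫_ℂ - ⟪ξ i, f (ξ i)⟫_ℂ := inner_sub_right _ _ _
  rw [h1, h2, h3] at h4
  exact_mod_cast h4

/-- small subprojections -/
theorem exists_small
    (hd : ∀ e, Pj S e → e ≠ 0 → ∃ q, Pj S q ∧ e * q = q ∧ q ≠ 0 ∧ q ≠ e) (he : Pj S e)
    (he0 : e ≠ 0) {δ : ℝ} (hδ : 0 < δ) : ∃ q, Pj S q ∧ e * q = q ∧ q ≠ 0 ∧ tq ξ q ≤ δ := by
  have key : ∀ n : ℕ, ∃ q, Pj S q ∧ e * q = q ∧ q ≠ 0 ∧ tq ξ q ≤ tq ξ e / 2 ^ n := by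
    intro n
    induction n with
    | zero => exact ⟨e, he, he.sq, he0, by simp⟩
    | succ n ih =>
      obtain ⟨q, h1, h2, h3, h4⟩ := ih
      obtain ⟨p, g1, g2, g3, g4⟩ := hd q h1 h3
      have g5 : q - p ≠ 0 := fun h => g4 (sub_eq_zero.1 h).symm
      rcases le_total (tq ξ p) (tq ξ (q - p)) with h | h
      · refine ⟨p, g1, by rw [← g2, ← mul_assoc, h2], g3, ?_⟩
        rw [tq_sub h1 g1 g2] at h
        rw [pow_succ, ← div_div, le_div_iff₀ two_pos]
        linarith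
      · refine ⟨q - p, h1.sub g1 g2, by rw [mul_sub, h2, ← g2, ← mul_assoc, h2], g5, ?_⟩
        rw [tq_sub h1 g1 g2] at h ⊢
        rw [pow_succ, ← div_div, le_div_iff₀ two_pos]
        linarith
  obtain ⟨n, hn⟩ := exists_pow_lt_of_lt_one (y := (1 / 2 : ℝ)) (x := δ / (tq ξ e + 1))
    (by have := tq_nonneg (ξ := ξ) e; positivity) (by norm_num)
  obtain ⟨q, h1, h2, h3, h4⟩ := key n
  refine ⟨q, h1, h2, h3, h4.trans ?_⟩
  have h5 := tq_nonneg (ξ := ξ) e
  rw [lt_div_iff₀ (by positivity)] at hn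
  have h6 : (1 / 2 : ℝ) ^ n * tq ξ e ≤ (1 / 2 : ℝ) ^ n * (tq ξ e + 1) := by
    gcongr
    linarith
  have h7 : tq ξ e / 2 ^ n = (1 / 2 : ℝ) ^ n * tq ξ e := by
    rw [one_div, inv_pow]
    ring
  rw [h7]
  linarith

/-- the families -/
structure OF (S : Set (H →L[ℂ] H)) (ξ : ι → H) (s : ℝ) (A : Set (H →L[ℂ] H)) : Prop where
  pj : ∀ v ∈ A, Pj S v
  orth : ∀ v ∈ A, ∀ v' ∈ A, v ≠ v' → v * v' = 0
  le : ∀ F : Finset (H →L[ℂ] H), (F : Set (H →L[ℂ] H)) ⊆ A → ∑ v ∈ F, tq ξ v ≤ s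

theorem exists_maxOF (S : Set (H →L[ℂ] H)) (ξ : ι → H) {s : ℝ} (hs : 0 ≤ s) :
    ∃ A, OF S ξ s A ∧ ∀ B, OF S ξ s B → A ⊆ B → B ⊆ A := by
  classical
  obtain ⟨A, hA⟩ := zorn_subset {A | OF S ξ s A} (by
    intro c hc hch
    refine ⟨⋃₀ c, ⟨?_, ?_, ?_⟩, fun s hs => Set.subset_sUnion_of_mem hs⟩
    · rintro v ⟨s, hs, hv⟩
      exact (hc hs).pj v hv
    · rintro v ⟨s, hs, hv⟩ v' ⟨s', hs', hv'⟩ hne
      rcases eq_or_ne s s' with rfl | hss
      · exact (hc hs).orth v hv v' hv' hne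
      · rcases hch hs hs' hss with h | h
        · exact (hc hs').orth v (h hv) v' hv' hne
        · exact (hc hs).orth v hv v' (h hv') hne
    · intro F hF
      rcases c.eq_empty_or_nonempty with rfl | hne
      · have h1 : F = ∅ := by
          rw [Finset.eq_empty_iff_forall_notMem]
          intro v hv
          obtain ⟨t, ht, -⟩ := hF hv
          exact ht
        rw [h1, Finset.sum_empty]
        exact hs
      · have h2 : ∃ t ∈ c, (F : Set (H →L[ℂ] H)) ⊆ t :=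
          DirectedOn.exists_mem_subset_of_finset_subset_biUnion hne
            (f := fun t => t) (hch.directedOn) (by
              rw [← Set.sUnion_eq_biUnion]
              exact hF)
        obtain ⟨t, ht, h3⟩ := h2
        exact (hc ht).le F h3)
  exact ⟨A, hA.prop, fun B hB h => hA.le_of_ge hB h⟩

/-- **Projections of every trace.** -/
theorem all_tr (hS : ∀ s ∈ S, adjoint s ∈ S)
    (hd : ∀ e, Pj S e → e ≠ 0 → ∃ q, Pj S q ∧ e * q = q ∧ q ≠ 0 ∧ q ≠ e) {s : ℝ} (h0 : 0 ≤ s)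
    (h1 : s ≤ ∑ i, ‖ξ i‖ ^ 2) : ∃ f, Pj S f ∧ tq ξ f = s := by
  classical
  obtain ⟨A, hA, hmax⟩ := exists_maxOF S ξ h0
  obtain ⟨w, hw, -, hw1, -⟩ := exists_sum' (u := fun v : A => (v : H →L[ℂ] H))
    (fun v => by
      have h := hA.pj v v.2
      rw [h.adj, h.sq, h.sq])
    (fun i j hij => by
      rw [(hA.pj i i.2).adj]
      exact hA.orth i i.2 j j.2 fun h => hij (Subtype.ext h))
    (fun i j hij => by
      rw [(hA.pj j j.2).adj]
      exact hA.orth i i.2 j j.2 fun h => hij (Subtype.ext h))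
  have hwv : ∀ v ∈ A, w * v = v := by
    intro v hv
    have h2 := hw1 ⟨v, hv⟩
    change w * adjoint v = v * adjoint v at h2
    rwa [(hA.pj v hv).adj, (hA.pj v hv).sq] at h2
  have hwa : adjoint w = w := by
    ext1 y
    refine ext_inner_left ℂ fun x => ?_
    rw [adjoint_inner_right]
    have a : HasSum (fun v : A => ⟪x, (v : H →L[ℂ] H) y⟫_ℂ) ⟪x, w y⟫_ℂ := by
      have := (innerSL ℂ x).hasSum (hw y)
      simpa only [innerSL_apply_apply] using this
    have b : HasSum (fun v : A => ⟪(v : H →L[ℂ] H) x, y⟫_ℂ) ⟪w x, y⟫_ℂ := by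
      have := Complex.hasSum_conj'.2 ((innerSL ℂ y).hasSum (hw x))
      simpa only [innerSL_apply_apply, inner_conj_symm] using this
    have c : (fun v : A => ⟪(v : H →L[ℂ] H) x, y⟫_ℂ) = fun v : A => ⟪x, (v : H →L[ℂ] H) y⟫_ℂ := by
      funext v
      rw [← adjoint_inner_right, (hA.pj v v.2).adj]
    rw [c] at b
    exact b.unique a
  have hww : w * w = w := by
    ext1 x
    have a := w.hasSum (hw x)
    refine a.unique ?_
    have c : (fun v : A => w ((v : H →L[ℂ] H) x)) = fun v : A => (v : H →L[ℂ] H) x := by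
      funext v
      exact DFunLike.congr_fun (hwv v v.2) x
    rw [c]
    exact hw x
  have hwC : Cc S w := by
    intro s hs
    ext1 x
    refine (hw (s x)).unique ?_
    have b := s.hasSum (hw x)
    have c : (fun v : A => s ((v : H →L[ℂ] H) x)) = fun v : A => (v : H →L[ℂ] H) (s x) := by
      funext v
      exact (DFunLike.congr_fun ((hA.pj v v.2).cc s hs) x).symm
    rw [c] at b
    exact b
  have hwP : Pj S w := ⟨hwC, hwa, hww⟩
  have hsum : HasSum (fun v : A => tq ξ (v : H →L[ℂ] H)) (tq ξ w) := by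
    refine hasSum_sum fun i _ => ?_
    have a : HasSum (fun v : A => ⟪ξ i, (v : H →L[ℂ] H) (ξ i)⟫_ℂ) ⟪ξ i, w (ξ i)⟫_ℂ := by
      have := (innerSL ℂ (ξ i)).hasSum (hw (ξ i))
      simpa only [innerSL_apply_apply] using this
    rw [hwP.norm] at a
    have c : (fun v : A => ⟪ξ i, (v : H →L[ℂ] H) (ξ i)⟫_ℂ) =
        fun v : A => ((‖(v : H →L[ℂ] H) (ξ i)‖ ^ 2 : ℝ) : ℂ) := by
      funext v
      exact (hA.pj v v.2).norm (ξ i)
    rw [c] at a
    exact Complex.hasSum_ofReal.1 a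
  have hle : tq ξ w ≤ s := by
    refine hasSum_le_of_sum_le hsum fun F => ?_
    have h2 := hA.le (F.map ⟨Subtype.val, Subtype.val_injective⟩) (by
      intro v hv
      rw [Finset.mem_coe, Finset.mem_map] at hv
      obtain ⟨u, -, rfl⟩ := hv
      exact u.2)
    rwa [Finset.sum_map] at h2
  refine ⟨w, hwP, hle.antisymm ?_⟩
  by_contra hlt
  push Not at hlt
  have h1P : Pj S (1 : H →L[ℂ] H) := ⟨Cc.one, by
    have : adjoint (1 : H →L[ℂ] H) = star 1 := rfl
    rw [this, star_one], one_mul 1⟩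
  have htr : tq ξ (1 - w) = (∑ i, ‖ξ i‖ ^ 2) - tq ξ w := by
    rw [tq_sub h1P hwP (one_mul w)]
    rfl
  have hne : (1 - w : H →L[ℂ] H) ≠ 0 := by
    intro h
    rw [h] at htr
    have h2 : tq ξ (0 : H →L[ℂ] H) = 0 := by simp [tq]
    rw [h2] at htr
    linarith
  obtain ⟨q, q1, q2, q3, q4⟩ := exists_small (ξ := ξ) hd (h1P.sub hwP (one_mul w)) hne
    (sub_pos.2 hlt)
  have hqw : w * q = 0 := by
    rw [sub_mul, one_mul] at q2
    exact sub_eq_self.1 q2
  have hqw' : q * w = 0 := by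
    have := congrArg adjoint hqw
    rwa [adj_mul', q1.adj, hwa, map_zero] at this
  have hqv : ∀ v ∈ A, q * v = 0 := fun v hv => by
    rw [← hwv v hv, ← mul_assoc, hqw', zero_mul]
  have hvq : ∀ v ∈ A, v * q = 0 := fun v hv => by
    have := congrArg adjoint (hqv v hv)
    rwa [adj_mul', q1.adj, (hA.pj v hv).adj, map_zero] at this
  have hqA : q ∉ A := fun h => q3 (by rw [← q1.sq, hqv q h])
  have hB : OF S ξ s (insert q A) := by
    refine ⟨?_, ?_, ?_⟩
    · rintro v (rfl | hv)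
      · exact q1
      · exact hA.pj v hv
    · rintro v (rfl | hv) v' (rfl | hv') hne'
      · exact absurd rfl hne'
      · exact hqv v' hv'
      · exact hvq v hv
      · exact hA.orth v hv v' hv' hne'
    · intro F hF
      have h2 : ∑ v ∈ F.erase q, tq ξ v ≤ tq ξ w := by
        have h3 : ∀ v ∈ F.erase q, v ∈ A := by
          intro v hv
          rw [Finset.mem_erase] at hv
          exact (hF hv.2).resolve_left hv.1
        have h4 := sum_le_hasSum ((F.erase q).subtype (· ∈ A)) (fun v _ => tq_nonneg _) hsum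
        refine le_trans (le_of_eq ?_) h4
        rw [Finset.sum_subtype_of_mem (f := fun v => tq ξ v) h3]
      by_cases hq : q ∈ F
      · rw [← Finset.add_sum_erase F _ hq]
        linarith
      · rw [Finset.erase_eq_of_notMem hq] at h2
        linarith
  exact hqA (hmax _ hB (Set.subset_insert _ _) (Set.mem_insert _ _))

end tr

end Vale.Agent.P092.H458.OV
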